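import Vale.Agent.P129BM.Defs
import Vale.Agent.P129BO.FS

/-!
# The analysis inside a model: the rows
-/

namespace Vale.Agent.P129B

universe v

variable (N : Type v) [ZM N]
  (R : Type*) [Field R] [LinearOrder R] [IsStrictOrderedRing R] [Coded N R] [RF N R]
  (K : Type*) [Field K] [Algebra R K] [Nm K R] [KA R K] [Coded N K] [KF N R K]

/-- A countable family of finite sequences which is dense. -/
def QQK : Prop :=
  ∃ q : NN N → NN N → K, Intl N q ∧ ∀ (n : NN N) (c : NN N → K), Intl N c → ∀ η : R, 0 < η →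
    ∃ t, ∀ i, i < n → nm (c i - q t i) ≤ η ∧ (c i = 0 → q t i = 0)

variable (E : Type*) [AddCommGroup E] [Module K E] [Nm E R] [NA R K E] [Coded N E] [NS N R K E]

/-- Geometric convergence. -/
def GEO : Prop :=
  ∀ (x : NN N → E) (C : R), Intl N x → (∀ j, nm (x j - x (j + 1)) ≤ C * hp R j) →
    ∃ w : E, ∀ j, nm (x j - w) ≤ 2 * C * hp R j

/-- Unbounded sequences which are bounded on a dense set. -/
def UNB : Prop :=
  ∀ g : NN N → Dual N K E, Intl N g → (∀ c : R, ∃ k, c < nm (g k)) → Dns (Bd g) → AbsSQ N K E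

/-- Successive corrections. -/
def CORR : Prop :=
  ∀ (φ : NN N → Dual N K E) (T : NN N → E → R → Prop) (C : R), Intl N φ →
    DefF N (fun p : NN N × E × R => T p.1 p.2.1 p.2.2) →
    (∀ (x : E) (ε : R), 0 < ε → ∃ n, T n x ε) →
    (∀ n n' x r, T n x r → n ≤ n' → T n' x r) →
    (∀ (n m : NN N) (x : E) (t η : R), 0 < t → 0 < η → T n x t →
      ∃ z : E, nm z ≤ C * t ∧ (∀ k, k < m → nm (φ k z - if n ≤ k then φ k x else 0) ≤ η) ∧
        ∀ s, η ≤ s → n ≤ m → T m x s → T m (x - z) (2 * s)) →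
    Dns (Bd (wt φ))

/-- Approximate interpolation inside a subspace. -/
def HELLY : Prop :=
  ∀ (F : Set E) (φ : NN N → Dual N K E) (c : NN N → K) (m : NN N) (t η : R), IsISub N K F →
    Intl N φ → Intl N c → 0 ≤ t → 0 < η →
    (∀ a : NN N → K, Intl N a → ∀ e : R, 0 < e →
      ∃ x ∈ F, nm x ≤ 1 ∧ nm (cmb a φ m) - e ≤ nm (cmb a φ m x)) →
    (∀ a : NN N → K, Intl N a → nm (isum (fun i => a i * c i) m) ≤ t * nm (cmb a φ m)) →
    ∃ z ∈ F, nm z ≤ t + η ∧ ∀ i, i < m → nm (φ i z - c i) ≤ η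

/-- The first alternative. -/
def ALPHA : Prop :=
  ∀ φ : NN N → Dual N K E, Intl N φ → HasH φ →
    (∀ (x : E) (ε : R), 0 < ε → ∃ n, Ta φ n x ε) → Dns (Bd (wt φ))

/-- Block sequences. -/
def BLOCK : Prop :=
  ∀ (φ u : NN N → Dual N K E) (n : NN N → NN N), Intl N φ → Intl N u → Intl N n → HasH φ →
    (∀ k, n k ≤ n (k + 1)) → (∀ k, InSp φ (n k) (n (k + 1)) (u k)) → HasH u

/-- The second alternative. -/
def BETA : Prop :=
  ∀ (φ : NN N → Dual N K E) (x₀ : E) (δ : R), Intl N φ → HasH φ → 0 < δ →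
    (∀ n, ¬ Ta φ n x₀ δ) →
    ∃ (u : NN N → Dual N K E) (c : R), Intl N u ∧ (∀ k, nm (u k) ≤ 1) ∧ HasH u ∧ 0 < c ∧ Lo1 u c

/-- The lower estimate passes to normalised blocks. -/
def BLOW : Prop :=
  ∀ (f u : NN N → Dual N K E) (n : NN N → NN N) (c : R), Intl N f → Intl N u → Intl N n →
    Lo1 f c → (∀ k, n k ≤ n (k + 1)) → (∀ k, InK f (n k) (n (k + 1)) (1 : R) (u k)) → Lo1 u c

/-- Pointwise null sequences with a lower estimate. -/
def NULLTA : Prop :=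
  ∀ (u : NN N → Dual N K E) (c : R) (x : E), Intl N u → 0 < c → Lo1 u c → Nul u x →
    ∀ ε : R, 0 < ε → ∃ n, Ta u n x ε

/-- A stable sequence. -/
def STABLE : Prop :=
  ∀ f : NN N → Dual N K E, Intl N f → (∀ i, nm (f i) ≤ 1) →
    ∃ g : NN N → Dual N K E, Intl N g ∧ (∀ n, ∃ m, n ≤ m ∧ InK f n m (1 : R) (g n)) ∧ Stab f g

/-- The tree. -/
def TREE : Prop :=
  ∀ (f g : NN N → Dual N K E) (r₀ : R), Intl N f → Intl N g → (∀ i, nm (f i) ≤ 1) → Ad f g →
    Stab f g → 0 < r₀ → ¬ OscLe g r₀ →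
    ∃ (δ : R) (x : NN N → E), 0 < δ ∧ Intl N x ∧ ∀ k, TQ g δ k x

/-- The finite stage of the Hilbertian construction. -/
def SIGNS : Prop :=
  ∀ (δ : R) (x : NN N → E) (q : NN N → NN N → R) (n : NN N), 0 < δ → Intl N x → Intl N q →
    Sgns K δ x n →
    ∃ f : NN N → Dual N K E, Intl N f ∧ (∀ k, n ≤ k → f k = 0) ∧ Sg δ x q n f

/-- Functionals equivalent to an orthonormal sequence. -/
def STAR : Prop :=
  ∀ (δ : R) (x : NN N → E), 0 < δ → Intl N x → (∀ i, nm (x i) ≤ 1) → (∀ n, Sgns K δ x n) →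
    ∃ φ : NN N → Dual N K E, Intl N φ ∧ Up2 φ ∧ Lo2 φ (δ / 8)

/-- The Hilbertian case. -/
def L2D : Prop :=
  ∀ (φ : NN N → Dual N K E) (c : R), Intl N φ → 0 < c → Up2 φ → Lo2 φ c → Dns (Bd (wt φ))

/-- Many functionals which are small in the mean. -/
def TE : Prop :=
  ¬ IFinDim N K E → ∀ η : R, 0 < η → ∃ (M : NN N) (F : NN N → Dual N K E), 0 < M ∧ Intl N F ∧
    (∀ j, j < M → nm (F j) = 1) ∧
    ∀ x : E, isum (fun j => nm (F j x) ^ 2) M ≤ η * rc R M * nm x ^ 2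

/-- A normalised functional which vanishes where `g` is bounded. -/
def NULLF : Prop :=
  ∀ g : NN N → Dual N K E, Intl N g → ¬ Dns (Bd g) →
    ∃ φ : Dual N K E, nm φ = 1 ∧ ∀ x, Bd g x → φ x = 0

/-- The weighted form of `UNB`. -/
def UNBW : Prop :=
  ∀ (φ : NN N → Dual N K E) (c : R), Intl N φ → 0 < c → (∀ k, c ≤ nm (φ k)) → Dns (Bd (wt φ)) →
    AbsSQ N K E

/-- The theorem of Hagler and Johnson. -/
def LONE : Prop :=
  ∀ (f : NN N → Dual N K E) (c : R), Intl N f → (∀ i, nm (f i) ≤ 1) → HasH f → 0 < c → Lo1 f c →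
    AbsSQ N K E

/-- Sequences with the property `HasH`. -/
def HASH : Prop :=
  ∀ φ : NN N → Dual N K E, Intl N φ → (∀ k, nm (φ k) = 1) → HasH φ → AbsSQ N K E

/-- The free set principle gives separable quotients. -/
def MAIN : Prop := FS N → ¬ IFinDim N K E → AbsSQ N K E

variable {N R K E}

theorem unbw (h : UNB N R K E) : UNBW N R K E := by
  intro φ c hφ hc h1 h2
  refine h (wt φ) inferInstance (fun d => ?_) h2
  obtain ⟨k, hk⟩ := exists_rc_gt N (d / c)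
  refine ⟨k, ?_⟩
  rw [nm_wt]
  exact ((div_lt_iff₀ hc).1 hk).trans_le (mul_le_mul_of_nonneg_left (h1 k) (rc_nonneg k))

theorem hash (hU : UNBW N R K E) (hA : ALPHA N R K E) (hB : BETA N R K E) (hL : LONE N R K E) :
    HASH N R K E := by
  intro φ hφ h1 H
  by_cases h : ∀ (x : E) (ε : R), 0 < ε → ∃ n, Ta φ n x ε
  · exact hU φ 1 hφ one_pos (fun k => (h1 k).ge) (hA φ hφ H h)
  · push Not at h
    obtain ⟨x₀, δ, hδ, h⟩ := h
    obtain ⟨u, c, hu, h2, h3, hc, h4⟩ := hB φ x₀ δ hφ H hδ h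
    exact hL u c hu h2 h3 hc h4

end Vale.Agent.P129B
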