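import Vale.Agent.P129B.Real
import Vale.Agent.P129BZ.Scal
import Vale.Agent.P129BI.FP

/-!
# The analysis inside a model: finite combinations, finite codimension, separable quotients
-/

set_option linter.unusedSectionVars false

namespace Vale.Agent.P129B

universe v

variable {N : Type v} [ZM N] {α : Type*} [Coded N α]

section Cmb

variable {K V : Type*} [Field K] [AddCommGroup V] [Module K V] [Coded N K] [Coded N V]

omit [Coded N K] in
/-- the combination of `φ i`, `i < m`, with the coefficients `a i` -/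
noncomputable def cmb (a : NN N → K) (φ : NN N → V) (m : NN N) : V := isum (fun i => a i • φ i) m

omit [Coded N K] in
theorem cmb_def (a : NN N → K) (φ : NN N → V) (m : NN N) :
    cmb a φ m = isum (fun i => a i • φ i) m := rfl

omit [Coded N K] in
@[simp] theorem cmb_zero (a : NN N → K) (φ : NN N → V) : cmb a φ 0 = 0 := isum_zero _

variable [DefAdd N V] [DefZero N V] [DefSMul N K V]

@[fun_prop] theorem DefF.cmb {a : α → NN N → K} {φ : α → NN N → V} {m : α → NN N}
    (ha : DefF N (fun p : α × NN N => a p.1 p.2)) (hφ : DefF N (fun p : α × NN N => φ p.1 p.2))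
    (hm : DefF N m) : DefF N (fun x => cmb (a x) (φ x) (m x)) :=
  DefF.isum (f := fun x i => a x i • φ x i) (ha.smul hφ) hm

theorem intl_cmb' {a : NN N → K} {φ : NN N → V} (ha : DefF N a) (hφ : DefF N φ) (m : NN N) :
    Intl N (cmb a φ m) := intl_isum' (ha.smul hφ) m

instance intl_cmb (a : NN N → K) (φ : NN N → V) [Intl N a] [Intl N φ] (m : NN N) :
    Intl N (cmb a φ m) := intl_cmb' (by fun_prop) (by fun_prop) m

variable {a b : NN N → K} {φ ψ : NN N → V}

theorem cmb_succ (ha : DefF N a) (hφ : DefF N φ) (m : NN N) :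
    cmb a φ (m + 1) = cmb a φ m + a m • φ m := isum_succ (ha.smul hφ) m

theorem cmb_congr (ha : DefF N a) (hφ : DefF N φ) (hb : DefF N b) (hψ : DefF N ψ) {m : NN N}
    (h : ∀ i, i < m → a i • φ i = b i • ψ i) : cmb a φ m = cmb b ψ m :=
  isum_congr (ha.smul hφ) (hb.smul hψ) h

theorem cmb_of_le (ha : DefF N a) (hφ : DefF N φ) {m n : NN N} (hmn : m ≤ n)
    (h : ∀ i, m ≤ i → i < n → a i = 0) : cmb a φ n = cmb a φ m :=
  isum_of_le (ha.smul hφ) hmn fun i h1 h2 => by rw [h i h1 h2, zero_smul]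

theorem cmb_eq_zero (ha : DefF N a) (hφ : DefF N φ) {m : NN N} (h : ∀ i, i < m → a i = 0) :
    cmb a φ m = 0 := isum_eq_zero (ha.smul hφ) fun i hi => by rw [h i hi, zero_smul]

theorem cmb_single (ha : DefF N a) (hφ : DefF N φ) {m j : NN N} (hj : j < m)
    (h : ∀ i, i < m → i ≠ j → a i = 0) : cmb a φ m = a j • φ j :=
  isum_single (ha.smul hφ) hj fun i h1 h2 => by rw [h i h1 h2, zero_smul]

theorem cmb_add (ha : DefF N a) (hb : DefF N b) (hφ : DefF N φ) (m : NN N) :
    cmb (fun i => a i + b i) φ m = cmb a φ m + cmb b φ m := by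
  simp only [cmb, add_smul]
  exact isum_add (ha.smul hφ) (hb.smul hφ) m

theorem cmb_sub [DefNeg N V] (ha : DefF N a) (hb : DefF N b) (hφ : DefF N φ) (m : NN N) :
    cmb (fun i => a i - b i) φ m = cmb a φ m - cmb b φ m := by
  simp only [cmb, sub_smul]
  exact isum_sub (ha.smul hφ) (hb.smul hφ) m

theorem cmb_mul (c : K) [Intl N c] (ha : DefF N a) (hφ : DefF N φ) (m : NN N) :
    cmb (fun i => c * a i) φ m = c • cmb a φ m := by
  simp only [cmb, mul_smul]
  exact (smul_isum c (ha.smul hφ) m).symm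

/-- Combinations of members of an internal subspace. -/
theorem IsISub.cmb_mem {Y : Set V} (hY : IsISub N K Y) (ha : DefF N a) (hφ : DefF N φ) {m : NN N}
    (h : ∀ i, i < m → φ i ∈ Y) : cmb a φ m ∈ Y := by
  have := hY.intl
  exact isum_induction (P := fun x => x ∈ Y) (by fun_prop) hY.zero
    (fun x y hx hy => hY.add x hx y hy) (ha.smul hφ) fun i hi => hY.smul _ _ (h i hi)

end Cmb

section Sp

variable {R : Type*} [Field R] [LinearOrder R]

/-- The points with the property `P` are dense. -/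
def Dns {E : Type*} [AddCommGroup E] [Nm E R] (P : E → Prop) : Prop :=
  ∀ (x : E) (ε : R), 0 < ε → ∃ y, P y ∧ nm (x - y) < ε

/-- Sign patterns. -/
def Pat {ι : Type*} (ε : ι → R) : Prop := ∀ i, ε i = 1 ∨ ε i = -1

variable (N) (K : Type*) {E : Type*} [Field K] [Coded N K] [AddCommGroup E] [Module K E]
  [Coded N E]

/-- finite codimension, internally -/
def IFinCodim (Y : Set E) : Prop :=
  ∃ (n : NN N) (v : NN N → E), Intl N v ∧ ∀ x : E, ∃ c : NN N → K, Intl N c ∧ x - cmb c v n ∈ Y

variable (E) in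
/-- finite dimension, internally -/
def IFinDim : Prop := IFinCodim N K ({0} : Set E)

variable (E) in
/-- a separable infinite-dimensional quotient, internally -/
def AbsSQ [Nm E R] : Prop :=
  ∃ Y : Set E, IsISub N K Y ∧
    (∀ x : E, (∀ ε : R, 0 < ε → ∃ y ∈ Y, nm (x - y) < ε) → x ∈ Y) ∧ ¬ IFinCodim N K Y ∧
    ∃ d : NN N → E, Intl N d ∧ ∀ (x : E) (ε : R), 0 < ε → ∃ n, ∃ y ∈ Y, nm (x - d n - y) < ε

end Sp

section Rules

variable {R : Type*} [Field R] [LinearOrder R] [IsStrictOrderedRing R] [Coded N R] [RF N R]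

@[fun_prop] theorem DefF.pat {ε : α → NN N → R} (h : DefF N (fun p : α × NN N => ε p.1 p.2)) :
    DefF N (fun x => Pat (ε x)) := by
  unfold Pat
  fun_prop

@[fun_prop] theorem DefF.dns {E : Type*} [AddCommGroup E] [Nm E R] [Coded N E] [Tot N E]
    [DefSub N E] [DefNm N R E] {P : α → E → Prop} (h : DefF N (fun p : α × E => P p.1 p.2)) :
    DefF N (fun x => Dns (P x)) := by
  unfold Dns
  fun_prop

variable {K : Type*} [Field K] [Algebra R K] [Nm K R] [KA R K] [Coded N K] [KF N R K]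
  {E : Type*} [AddCommGroup E] [Module K E] [Nm E R] [NA R K E] [Coded N E] [NS N R K E]

theorem Dns.mono {P Q : E → Prop} (h : Dns P) (e : ∀ x, P x → Q x) : Dns Q := fun x ε hε =>
  (h x ε hε).imp fun y hy => ⟨e y hy.1, hy.2⟩

theorem nm_cmb_le {a : NN N → K} {φ : NN N → E} (ha : DefF N a) (hφ : DefF N φ) (m : NN N) :
    nm (cmb a φ m) ≤ isum (fun i => nm (a i) * nm (φ i)) m := by
  refine (nm_isum_le (ha.smul hφ) m).trans_eq ?_
  simp only [nm_smul]

theorem nm_cmb_le_of_le_one {a : NN N → K} {φ : NN N → E} (ha : DefF N a) (hφ : DefF N φ)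
    {m : NN N} (h : ∀ i, i < m → nm (φ i) ≤ 1) : nm (cmb a φ m) ≤ isum (fun i => nm (a i)) m :=
  (nm_cmb_le ha hφ m).trans (isum_le_isum (by fun_prop) (by fun_prop) fun i hi =>
    mul_le_of_le_one_right (nm_nonneg _) (h i hi))

end Rules

end Vale.Agent.P129B
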