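import Vale.Agent.P129BM.Plug
import Vale.Agent.P129BO.Main
import Vale.Agent.P129BR.TreeMain
import Vale.Agent.P129BA.Star
import Vale.Agent.P129BP.Ad

/-!
# The free set principle gives separable quotients, in every model
-/

namespace Vale.Agent.P129B.Pl

open Vale.Agent.P129Z.S

universe v

variable {N : Type v} [ZM N]

section

variable {R : Type*} [Field R] [LinearOrder R] [IsStrictOrderedRing R] [Coded N R] [RF N R]
  {K : Type*} [Field K] [Algebra R K] [Nm K R] [KA R K] [Coded N K] [KF N R K]
  {E : Type*} [AddCommGroup E] [Module K E] [Nm E R] [NA R K E] [Coded N E] [NS N R K E]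

theorem star : STAR N R K E := fun _ x hδ _ h1 h2 => star_core hδ (DefF.ofIntl x) h1 h2

/-- The free set principle gives separable quotients of the Banach spaces of the model. -/
theorem absSQ_of_FS [Cpl N R E] : MAIN N R K E :=
  main_of te unb nullf (hash_of tree star) qqk

end

theorem allAbs_of_FS (h : FS N) : P129BP.AllAbs N :=
  fun _ _ _ _ _ _ _ _ _ _ _ _ _ _ _ _ _ _ _ _ _ hE => absSQ_of_FS h hE

/-- **In every model of ZFC the free set principle implies the separable quotient property.** -/
theorem sq_of_FS (h : FS N) : SQReal (ZM.E (N := N)) ∧ SQComplex (ZM.E (N := N)) :=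
  P129BP.sq_of_abs (allAbs_of_FS h)

end Vale.Agent.P129B.Pl
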