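import Vale.Agent.P129BM.Defs0
import Vale.Agent.P129BZ.Dual

/-!
# The analysis inside a model: the predicates on sequences of functionals
-/

set_option linter.unusedSectionVars false

namespace Vale.Agent.P129B

universe v

variable {N : Type v} [ZM N] {α : Type*} [Coded N α]
  {R : Type*} [Field R] [LinearOrder R] [IsStrictOrderedRing R] [Coded N R] [RF N R]
  {K : Type*} [Field K] [Algebra R K] [Nm K R] [KA R K] [Coded N K] [KF N R K]
  {E : Type*} [AddCommGroup E] [Module K E] [Nm E R] [NA R K E] [Coded N E] [NS N R K E]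

theorem cmb_apply {a : NN N → K} {φ : NN N → Dual N K E} (ha : DefF N a) (hφ : DefF N φ)
    (m : NN N) (x : E) : cmb a φ m x = isum (fun i => a i * φ i x) m :=
  Dual.isum_apply (ha.smul hφ) m x

theorem apply_cmb (u : Dual N K E) {a : NN N → K} {v : NN N → E} (ha : DefF N a) (hv : DefF N v)
    (m : NN N) : u (cmb a v m) = isum (fun i => a i * u (v i)) m := by
  rw [cmb, Dual.apply_isum u (ha.smul hv)]
  simp only [Dual.smul_arg]

/-- the sequence `k • φ k` -/
noncomputable def wt (φ : NN N → Dual N K E) (k : NN N) : Dual N K E :=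
  algebraMap R K (rc R k) • φ k

theorem nm_wt (φ : NN N → Dual N K E) (k : NN N) : nm (wt φ k) = rc R k * nm (φ k) :=
  nm_ofR_smul_of_nonneg (rc_nonneg k) _

theorem nm_wt_apply (φ : NN N → Dual N K E) (k : NN N) (x : E) :
    nm (wt φ k x) = rc R k * nm (φ k x) := by
  rw [wt, Dual.smul_apply, KA.nm_mul, KA.nm_ofR_of_nonneg (rc_nonneg k)]

/-- The sequence `g` is bounded at `x`. -/
def Bd (g : NN N → Dual N K E) (x : E) : Prop := ∃ c : R, ∀ k, nm (g k x) ≤ c

/-- The finite combinations are normed by vectors annihilated by the other members. -/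
def HasH (φ : NN N → Dual N K E) : Prop :=
  ∀ (n : NN N) (a : NN N → K), Intl N a → ∀ η : R, 0 < η → ∃ x : E, nm x ≤ 1 ∧
    (∀ j, n ≤ j ∨ a j = 0 → φ j x = 0) ∧ nm (cmb a φ n) - η ≤ nm (cmb a φ n x)

/-- The point `x` has norm at most `r` on the span of the `φ i`, `n ≤ i`. -/
def Ta (φ : NN N → Dual N K E) (n : NN N) (x : E) (r : R) : Prop :=
  ∀ (m : NN N) (a : NN N → K), Intl N a → (∀ i, i < n → a i = 0) →
    nm (cmb a φ m x) ≤ r * nm (cmb a φ m)

/-- `u` is a combination of `φ n, …, φ (m - 1)`. -/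
def InSp (φ : NN N → Dual N K E) (n m : NN N) (u : Dual N K E) : Prop :=
  ∃ a : NN N → K, Intl N a ∧ (∀ i, i < n → a i = 0) ∧ (∀ i, m ≤ i → a i = 0) ∧ u = cmb a φ m

/-- `u` is a combination of `f n, …, f (m - 1)` with coefficients of total modulus `t`. -/
def InK (f : NN N → Dual N K E) (n m : NN N) (t : R) (u : Dual N K E) : Prop :=
  ∃ b : NN N → K, Intl N b ∧ (∀ i, i < n → b i = 0) ∧ (∀ i, m ≤ i → b i = 0) ∧
    isum (fun i => nm (b i)) m = t ∧ u = cmb b f m

/-- Sequences of normalised combinations moving to infinity. -/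
def Ad (f g : NN N → Dual N K E) : Prop :=
  ∀ l, ∃ n₀, ∀ n, n₀ ≤ n → ∃ m, l ≤ m ∧ InK f l m (1 : R) (g n)

/-- `u` is dominated by the tail of `g` from `l` on. -/
def Dm (g : NN N → Dual N K E) (l : NN N) (u : Dual N K E) : Prop :=
  ∀ (x : E) (r : R), (∀ j, l ≤ j → nm (g j x) ≤ r) → nm (u x) ≤ r

/-- Every tail of `g` dominates a tail of `h`. -/
def Do (g h : NN N → Dual N K E) : Prop := ∀ l, ∃ n₀, ∀ n, n₀ ≤ n → Dm g l (h n)

/-- The asymptotic size of `g` on the unit ball is at most `r`. -/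
def OscLe (g : NN N → Dual N K E) (r : R) : Prop :=
  ∀ x : E, nm x ≤ 1 → ∃ n₀, ∀ n, n₀ ≤ n → nm (g n x) ≤ r

/-- The size of `g` is at most the size of `h` plus `ε`. -/
def LeAdd (g h : NN N → Dual N K E) (ε : R) : Prop :=
  ∀ r s : R, r + ε < s → OscLe h r → OscLe g s

/-- `g` is stable among the sequences of normalised combinations of `f`. -/
def Stab (f g : NN N → Dual N K E) : Prop :=
  ∀ h : NN N → Dual N K E, Intl N h → Ad f h → Do g h → LeAdd g h (0 : R)

/-- `u` reproduces the pattern `ε` at the first `k` points. -/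
def Rep (δ : R) (x : NN N → E) (k : NN N) (ε : NN N → R) (u : Dual N K E) : Prop :=
  ∀ i, i < k → nm (u (x i) - algebraMap R K (δ * ε i)) ≤ δ / 16

/-- The first `k` levels of the tree. -/
def TQ (g : NN N → Dual N K E) (δ : R) (k : NN N) (x : NN N → E) : Prop :=
  (∀ i, i < k → nm (x i) ≤ 1) ∧
    ∀ ε : NN N → R, Intl N ε → Pat ε → ∀ l, ∃ n, l ≤ n ∧ Rep δ x k ε (g n)

variable (K) in
/-- All finite sign patterns are reproduced by functionals of norm at most one. -/
def Sgns (δ : R) (x : NN N → E) (n : NN N) : Prop :=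
  ∀ ε : NN N → R, Intl N ε → Pat ε → ∃ ψ : Dual N K E, nm ψ ≤ 1 ∧ Rep δ x n ε ψ

/-- The finite stage of the construction of functionals equivalent to an orthonormal sequence. -/
def Sg (δ : R) (x : NN N → E) (q : NN N → NN N → R) (n : NN N) (f : NN N → Dual N K E) : Prop :=
  (∀ y : E, isum (fun k => nm (f k y) ^ 2) n ≤ nm y ^ 2) ∧ ∀ i, i < n →
    0 ≤ isum (fun k => q i k * KA.re (f k (x i))) n ∧
    (3 / 8 * δ) ^ 2 * isum (fun k => q i k ^ 2) n ≤
      isum (fun k => q i k * KA.re (f k (x i))) n ^ 2 ∧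
    isum (fun k => KA.im (f k (x i)) ^ 2) n ≤ (δ / 16) ^ 2

/-- The tail from `n` on has Euclidean norm at most `r`. -/
def T2 (φ : NN N → Dual N K E) (n : NN N) (x : E) (r : R) : Prop :=
  0 ≤ r ∧ ∀ m, isum (fun k => if n ≤ k then nm (φ k x) ^ 2 else 0) m ≤ r ^ 2

/-- lower `ℓ¹`-estimate -/
def Lo1 (u : NN N → Dual N K E) (c : R) : Prop :=
  ∀ (n : NN N) (a : NN N → K), Intl N a → c * isum (fun k => nm (a k)) n ≤ nm (cmb a u n)

/-- pointwise upper `ℓ²`-estimate -/
def Up2 (φ : NN N → Dual N K E) : Prop :=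
  ∀ (y : E) (n : NN N), isum (fun k => nm (φ k y) ^ 2) n ≤ nm y ^ 2

/-- lower `ℓ²`-estimate -/
def Lo2 (φ : NN N → Dual N K E) (c : R) : Prop :=
  ∀ (n : NN N) (a : NN N → K), Intl N a →
    c ^ 2 * isum (fun k => nm (a k) ^ 2) n ≤ nm (cmb a φ n) ^ 2

/-- The sequence tends to zero at `x`. -/
def Nul (v : NN N → Dual N K E) (x : E) : Prop :=
  ∀ ε : R, 0 < ε → ∃ n, ∀ k, n ≤ k → nm (v k x) ≤ ε

/-! ### Definability -/

section Rules

variable {φ f g h : α → NN N → Dual N K E} {u : α → Dual N K E} {x : α → E} {n m k : α → NN N}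
  {r δ : α → R} {y : α → NN N → E} {ε : α → NN N → R}

@[fun_prop] theorem DefF.wt (hφ : DefF N (fun p : α × NN N => φ p.1 p.2)) (hk : DefF N k) :
    DefF N (fun a => wt (φ a) (k a)) := by
  unfold P129B.wt
  fun_prop

instance intl_wt (φ : NN N → Dual N K E) [Intl N φ] : Intl N (wt φ) :=
  DefF.toIntl (by fun_prop : DefF N (fun k => wt φ k))

@[fun_prop] theorem DefF.bd (hg : DefF N (fun p : α × NN N => g p.1 p.2)) (hx : DefF N x) :
    DefF N (fun a => Bd (g a) (x a)) := by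
  unfold Bd
  fun_prop

@[fun_prop] theorem DefF.hasH (hφ : DefF N (fun p : α × NN N => φ p.1 p.2)) :
    DefF N (fun a => HasH (φ a)) := by
  unfold HasH
  fun_prop

@[fun_prop] theorem DefF.ta (hφ : DefF N (fun p : α × NN N => φ p.1 p.2)) (hn : DefF N n)
    (hx : DefF N x) (hr : DefF N r) : DefF N (fun a => Ta (φ a) (n a) (x a) (r a)) := by
  unfold Ta
  fun_prop

@[fun_prop] theorem DefF.inSp (hφ : DefF N (fun p : α × NN N => φ p.1 p.2)) (hn : DefF N n)
    (hm : DefF N m) (hu : DefF N u) : DefF N (fun a => InSp (φ a) (n a) (m a) (u a)) := by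
  unfold InSp
  fun_prop

@[fun_prop] theorem DefF.inK (hf : DefF N (fun p : α × NN N => f p.1 p.2)) (hn : DefF N n)
    (hm : DefF N m) (hr : DefF N r) (hu : DefF N u) :
    DefF N (fun a => InK (f a) (n a) (m a) (r a) (u a)) := by
  unfold InK
  fun_prop

@[fun_prop] theorem DefF.ad (hf : DefF N (fun p : α × NN N => f p.1 p.2))
    (hg : DefF N (fun p : α × NN N => g p.1 p.2)) : DefF N (fun a => Ad (f a) (g a)) := by
  unfold Ad
  fun_prop

@[fun_prop] theorem DefF.dm (hg : DefF N (fun p : α × NN N => g p.1 p.2)) (hn : DefF N n)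
    (hu : DefF N u) : DefF N (fun a => Dm (g a) (n a) (u a)) := by
  unfold Dm
  fun_prop

@[fun_prop] theorem DefF.do (hg : DefF N (fun p : α × NN N => g p.1 p.2))
    (hh : DefF N (fun p : α × NN N => h p.1 p.2)) : DefF N (fun a => Do (g a) (h a)) := by
  unfold Do
  fun_prop

@[fun_prop] theorem DefF.oscLe (hg : DefF N (fun p : α × NN N => g p.1 p.2)) (hr : DefF N r) :
    DefF N (fun a => OscLe (g a) (r a)) := by
  unfold OscLe
  fun_prop

@[fun_prop] theorem DefF.leAdd (hg : DefF N (fun p : α × NN N => g p.1 p.2))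
    (hh : DefF N (fun p : α × NN N => h p.1 p.2)) (hr : DefF N r) :
    DefF N (fun a => LeAdd (g a) (h a) (r a)) := by
  unfold LeAdd
  fun_prop

@[fun_prop] theorem DefF.rep (hδ : DefF N δ) (hy : DefF N (fun p : α × NN N => y p.1 p.2))
    (hk : DefF N k) (hε : DefF N (fun p : α × NN N => ε p.1 p.2)) (hu : DefF N u) :
    DefF N (fun a => Rep (δ a) (y a) (k a) (ε a) (u a)) := by
  unfold Rep
  fun_prop

@[fun_prop] theorem DefF.tq (hg : DefF N (fun p : α × NN N => g p.1 p.2)) (hδ : DefF N δ)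
    (hk : DefF N k) (hy : DefF N (fun p : α × NN N => y p.1 p.2)) :
    DefF N (fun a => TQ (g a) (δ a) (k a) (y a)) := by
  unfold TQ
  fun_prop

@[fun_prop] theorem DefF.sgns (hδ : DefF N δ) (hy : DefF N (fun p : α × NN N => y p.1 p.2))
    (hn : DefF N n) : DefF N (fun a => Sgns K (δ a) (y a) (n a)) := by
  unfold Sgns
  fun_prop

@[fun_prop] theorem DefF.sg {q : α → NN N → NN N → R} (hδ : DefF N δ)
    (hy : DefF N (fun p : α × NN N => y p.1 p.2))
    (hq : DefF N (fun p : α × NN N × NN N => q p.1 p.2.1 p.2.2)) (hn : DefF N n)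
    (hf : DefF N (fun p : α × NN N => f p.1 p.2)) :
    DefF N (fun a => Sg (δ a) (y a) (q a) (n a) (f a)) := by
  unfold Sg
  fun_prop

@[fun_prop] theorem DefF.t2 (hφ : DefF N (fun p : α × NN N => φ p.1 p.2)) (hn : DefF N n)
    (hx : DefF N x) (hr : DefF N r) : DefF N (fun a => T2 (φ a) (n a) (x a) (r a)) := by
  unfold T2
  fun_prop

@[fun_prop] theorem DefF.lo1 (hφ : DefF N (fun p : α × NN N => φ p.1 p.2)) (hr : DefF N r) :
    DefF N (fun a => Lo1 (φ a) (r a)) := by
  unfold Lo1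
  fun_prop

@[fun_prop] theorem DefF.nul (hφ : DefF N (fun p : α × NN N => φ p.1 p.2)) (hx : DefF N x) :
    DefF N (fun a => Nul (φ a) (x a)) := by
  unfold Nul
  fun_prop

end Rules

end Vale.Agent.P129B
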