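import Vale.Agent.P129BM.Spec
import Vale.Agent.P129B64.Dl
import Vale.Agent.P129BI.UnbD
import Vale.Agent.P129BE.Dual
import Vale.Agent.P129BF.L2D
import Vale.Agent.P129BT.Te
import Vale.Agent.P129BD.Dl
import Vale.Agent.P129BL.Dense
import Vale.Agent.P129BU.Kit
import Vale.Agent.P129BR.Tree

/-!
# The analysis inside a model: the rows which are proved
-/

set_option linter.unusedSectionVars false

namespace Vale.Agent.P129B.Pl

universe v

variable {N : Type v} [ZM N]
  {R : Type*} [Field R] [LinearOrder R] [IsStrictOrderedRing R] [Coded N R] [RF N R]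
  {K : Type*} [Field K] [Algebra R K] [Nm K R] [KA R K] [Coded N K] [KF N R K]
  {E : Type*} [AddCommGroup E] [Module K E] [Nm E R] [NA R K E] [Coded N E] [NS N R K E]

theorem qqk : QQK N R K := by
  obtain ⟨q, hq, h⟩ := exists_qqK N R K
  exact ⟨q, hq, fun n c hc η hη => h n c η hc hη⟩

theorem hh_iff {φ : NN N → Dual N K E} :
    B64.HH (fun (u : Dual N K E) (x : E) => u x) φ ↔ HasH φ :=
  ⟨fun H n a ha η hη => H n a η ha hη, fun H n a η ha hη => H n a ha η hη⟩

theorem unb [Cpl N R E] : UNB N R K E := fun g _ h1 h2 => BI.unb_dual g h1 h2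

theorem alpha [Cpl N R E] : ALPHA N R K E := fun φ _ H h =>
  alpha_dual φ (fun n a η ha hη => H n a ha η hη) h

theorem block : BLOCK N R K E := fun φ u n _ _ _ H h1 h2 =>
  hh_iff.1 (B64.HH.block B64.pr_dual (DefF.ofIntl φ) (DefF.ofIntl u) (DefF.ofIntl n)
    (hh_iff.2 H) h1 h2)

theorem beta : BETA N R K E := fun φ _ _ _ H hδ h => by
  obtain ⟨u, c, h1, h2, h3, h4, h5⟩ :=
    B64.HH.beta B64.pr_dual (DefF.ofIntl φ) (hh_iff.2 H) hδ h
  exact ⟨u, c, h1, h2, hh_iff.1 h3, h4, h5⟩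

theorem blow : BLOW N R K E := fun f u n _ _ _ _ H h1 h2 =>
  B64.LO.block (DefF.ofIntl f) (DefF.ofIntl u) (DefF.ofIntl n) H h1 h2

theorem nullta : NULLTA N R K E := fun u _ _ _ hc H hx _ hε =>
  B64.TA.of_null B64.pr_dual (DefF.ofIntl u) hc H hx hε

theorem stable : STABLE N R K E := fun f _ hf =>
  Stb.exists_stable_ik (fun (u : Dual N K E) (x : E) => u x) (by fun_prop) Dual.le_opNorm f hf

theorem tree_of (h : ∀ f g : NN N → Dual N K E, Intl N f → Intl N g → Ad f g → Tre.TreeSum f g) :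
    TREE N R K E := fun f g _ h1 h2 hf hg hst hr h0 => by
  obtain ⟨δ, hδ, x, hx, H⟩ := Tre.exists_tree_of f g hf hg (h f g h1 h2 hg) hst hr h0
  exact ⟨δ, x, hδ, hx, H⟩

theorem signs : SIGNS N R K E := fun _ x q n hδ _ _ h =>
  signs_dual (c := 3 / 8) (by norm_num) (by norm_num) hδ (DefF.ofIntl x) (DefF.ofIntl2 q) n h

theorem l2d [Cpl N R E] : L2D N R K E := fun φ _ _ hc h1 h2 => l2d_dual φ hc h1 h2

theorem te : TE N R K E := fun hE _ h => weak_dr hE h

theorem nullf : NULLF N R K E := by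
  intro g hg h
  have hM : IsISub N K {x : E | Bd g x} :=
    { intl := intl_setOfT (by fun_prop)
      zero := ⟨0, fun k => by simp⟩
      add := fun x ⟨c, hc⟩ y ⟨d, hd⟩ => ⟨c + d, fun k => by
        rw [map_add]; exact (nm_add_le _ _).trans (add_le_add (hc k) (hd k))⟩
      smul := fun a x ⟨c, hc⟩ => ⟨nm a * c, fun k => by
        rw [Dual.smul_arg, KA.nm_mul]; exact mul_le_mul_of_nonneg_left (hc k) (nm_nonneg a)⟩ }
  unfold Dns at h
  push Not at h
  obtain ⟨x₀, δ, hδ, h⟩ := h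
  exact exists_dual_null hM hδ h

theorem lone [Cpl N R E] (hT : TREE N R K E) (hS : STAR N R K E) : LONE N R K E := by
  intro f c hfI hf H hc hlow
  obtain ⟨g, hgI, hg1, hg2⟩ := stable f hfI hf
  have hAd : Ad f g := Stb.ad_of_forall (IK := fun n M u => Stb.IK K f n M (1 : R) u)
    (fun _ _ _ _ h k => k.mono h le_rfl) hg1
  have hgn : ∀ n, nm (g n) ≤ 1 := fun n => by
    obtain ⟨M, -, hM⟩ := hg1 n
    exact Stb.IK.nm_le hM hf
  by_cases h : ∀ r : R, 0 < r → OscLe g r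
  · obtain ⟨s, hs, -, hs'⟩ := exists_intl_seq (N := N) (Inv := fun _ (_ : NN N × NN N) => True)
      (R := fun _ (s t : NN N × NN N) => s.1 < t.1 ∧ s.2 ≤ t.2 ∧ InK f s.2 t.2 (1 : R) (g t.1))
      (by fun_prop) (by fun_prop) (0, 0) trivial fun k s _ _ => by
        obtain ⟨n, M, h1⟩ := Stb.block_step (IK := fun n M u => InK f n M (1 : R) u) hAd s.1 s.2
        exact ⟨(n, M), inferInstance, trivial, h1⟩
    have hu : Intl N (fun k => g (s (k + 1)).1) := DefF.toIntl (by fun_prop)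
    have hn : Intl N (fun k => (s k).2) := DefF.toIntl (by fun_prop)
    have hl : Lo1 (fun k => g (s (k + 1)).1) c :=
      blow f _ (fun k => (s k).2) c hfI hu hn hlow (fun k => (hs' k).2.2.1) fun k => (hs' k).2.2.2
    have hH : HasH (fun k => g (s (k + 1)).1) :=
      block f _ (fun k => (s k).2) hfI hu hn H (fun k => (hs' k).2.2.1) fun k => by
        obtain ⟨b, h1, h2, h3, -, h4⟩ := (hs' k).2.2.2
        exact ⟨b, h1, h2, h3, h4⟩
    have hge : ∀ k, k ≤ (s k).1 := fun k =>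
      NN.ind (P := fun k => k ≤ (s k).1) (by fun_prop) (NN.zero_le' _)
        (fun k hk => NN.add_one_le_iff.2 (hk.trans_lt (hs' k).2.1)) k
    refine unbw unb _ c hu hc (fun k => ?_) (alpha _ hu hH fun x ε hε =>
      nullta _ c x hu hc hl (fun e he => ?_) ε hε)
    · obtain ⟨b, h1, -, -, h3, h4⟩ := (hs' k).2.2.2
      have h5 := hlow (s (k + 1)).2 b h1
      rwa [h3, mul_one, ← h4] at h5
    · have h1 : 0 < nm x + 1 := by linarith [nm_nonneg x]
      obtain ⟨n₀, h2⟩ := h (e / (nm x + 1)) (div_pos he h1)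
        (algebraMap R K (nm x + 1)⁻¹ • x) (by
          rw [nm_ofR_smul_of_nonneg (inv_pos.2 h1).le, inv_mul_le_iff₀ h1]; linarith)
      refine ⟨n₀, fun k hk => ?_⟩
      have h3 := h2 (s (k + 1)).1 (hk.trans (k.lt_add_one.le.trans (hge _)))
      rw [Dual.smul_arg, KA.nm_mul, KA.nm_ofR_of_nonneg (inv_pos.2 h1).le, inv_mul_le_iff₀ h1,
        mul_div_cancel₀ _ h1.ne'] at h3
      exact h3
  · push Not at h
    obtain ⟨r₀, hr₀, h0⟩ := h
    obtain ⟨δ, x, hδ, hx, hQ⟩ := hT f g r₀ hfI hgI hf hAd hg2 hr₀ h0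
    obtain ⟨φ, hφ, h1, h2⟩ := hS δ x hδ hx (fun i => (hQ (i + 1)).1 i i.lt_add_one)
      fun n ε hε hp => by
        obtain ⟨j, -, hj⟩ := (hQ n).2 ε hε hp 0
        exact ⟨g j, hgn j, hj⟩
    have hδ8 : 0 < δ / 8 := by positivity
    refine unbw unb φ (δ / 8) hφ hδ8 (fun k => ?_) (l2d φ _ hφ hδ8 h1 h2)
    classical
    have ha : DefF N (fun i : NN N => if i = k then (1 : K) else 0) := by fun_prop
    have h3 := h2 (k + 1) _ ha.toIntl
    rw [cmb_single ha (DefF.ofIntl φ) k.lt_add_one (fun i _ hi => if_neg hi),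
      isum_single (by fun_prop) k.lt_add_one (fun i _ hi => by rw [if_neg hi]; simp),
      if_pos rfl, one_smul, KA.nm_one, one_pow, mul_one] at h3
    exact (pow_le_pow_iff_left₀ hδ8.le (nm_nonneg _) two_ne_zero).1 h3

theorem hash_of [Cpl N R E] (hT : TREE N R K E) (hS : STAR N R K E) : HASH N R K E :=
  hash (unbw unb) alpha beta (lone hT hS)

end Vale.Agent.P129B.Pl
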